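import Vale.Agent.P030.H60.ExV1

/-!
# P030, V-layer: the last two coordinates of the local expansions, in closed form
-/

open PowerSeries Metric Set Filter Topology

namespace Vale.Agent.P030.H60.ExV

open Vale.Agent.P030.T Vale.Agent.P030.H462 Vale.Agent.P030.AR

noncomputable section

/-- values and derivatives of the five series -/
def k0 (t : ℂ) : ℂ := evQ serK t
def k1 (t : ℂ) : ℂ := e1 serK t
def m0 (t : ℂ) : ℂ := evQ serM t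
def m1 (t : ℂ) : ℂ := e1 serM t
def b0 (t : ℂ) : ℂ := evQ serB t
def b1 (t : ℂ) : ℂ := e1 serB t
def d0 (t : ℂ) : ℂ := evQ serB2 t
def d1 (t : ℂ) : ℂ := e1 serB2 t
def r0 (t : ℂ) : ℂ := evQ H462.serR t
def r1 (t : ℂ) : ℂ := e1 H462.serR t

/-- `tw` on values -/
def twv (t a a' : ℂ) : ℂ := (1 + t) / 2 * ((1 - t) * a' - a)

variable {t : ℂ}

theorem tupC_eq (g : Gp) (hg : ∀ j, tup1 g j = 0) (j : Fin 8) : tupC g t j = evq (tup0 g j) t := by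
  rw [tupC, hg, evq_zero, mul_zero, add_zero]

theorem gv6 : gv 6 = 0 := rfl
theorem gv7 : gv 7 = 0 := rfl
theorem hv6 : hv 6 = 0 := rfl
theorem hv7 : hv 7 = 0 := rfl
theorem dv6 : dv 6 = 0 := rfl
theorem dv7 : dv 7 = 0 := rfl

theorem z1_6 (ht : ‖t‖ < 1) : tupC .z1 t 6 = (1 - t) * b0 t - xc * ((1 - t) * k0 t) := by
  show evq ((1 - X) * serB) t + xc * evq (-((1 - X) * serK)) t = _
  rw [evq_neg, evq_one_sub pq_serB ht, evq_one_sub pq_serK ht, b0, k0]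
  ring

theorem z1_7 (ht : ‖t‖ < 1) :
    tupC .z1 t 7 = (1 - t) * (t * b1 t) - xc * ((1 - t) * (t * k1 t)) := by
  show evq ((1 - X) * th serB) t + xc * evq (-((1 - X) * th serK)) t = _
  rw [evq_neg, evq_one_sub_th pq_serB ht, evq_one_sub_th pq_serK ht, b1, k1]
  ring

theorem zl_6 : tupC .zl t 6 = 0 := by
  rw [tupC_eq _ (fun _ => rfl)]; exact evq_zero
theorem zl_7 : tupC .zl t 7 = 0 := by
  rw [tupC_eq _ (fun _ => rfl)]; exact evq_zero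

theorem z8_6 (ht : ‖t‖ < 1) : tupC .z8 t 6 = (1 - t) * k0 t := by
  rw [tupC_eq _ (fun _ => rfl)]; exact evq_one_sub pq_serK ht
theorem z8_7 (ht : ‖t‖ < 1) : tupC .z8 t 7 = (1 - t) * (t * k1 t) := by
  rw [tupC_eq _ (fun _ => rfl)]; exact evq_one_sub_th pq_serK ht

theorem zL0_6 : evt zL0 t 6 = 0 := evq_zero
theorem zL0_7 : evt zL0 t 7 = 0 := evq_zero
theorem zM0_6 (ht : ‖t‖ < 1) : evt zM0 t 6 = (1 - t) * m0 t := evq_one_sub pq_serM ht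
theorem zM0_7 (ht : ‖t‖ < 1) : evt zM0 t 7 = (1 - t) * (t * m1 t + k0 t) := by
  show evq ((1 - X) * (th serM + serK)) t = _
  rw [evq_one_sub' ((pq_th pq_serM).add pq_serK) ht, evq_add (pq_th pq_serM) pq_serK ht,
    H605.th_eq, evq_X' pq_serM.deriv ht, evq_eq, evq_eq]
  rfl

theorem w1_6 : tupC .w1 t 6 = d0 t := by
  rw [tupC_eq _ (fun _ => rfl)]; exact evq_eq _ _
theorem w1_7 (ht : ‖t‖ < 1) : tupC .w1 t 7 = twv t (d0 t) (d1 t) := by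
  rw [tupC_eq _ (fun _ => rfl)]; exact evq_tw pq_serB2 ht
theorem wl_6 : tupC .wl t 6 = 0 := by
  rw [tupC_eq _ (fun _ => rfl)]; exact evq_zero
theorem wl_7 : tupC .wl t 7 = 0 := by
  rw [tupC_eq _ (fun _ => rfl)]; exact evq_zero
theorem wy_6 : tupC .wy t 6 = -k0 t := by
  rw [tupC_eq _ (fun _ => rfl)]
  show evq (-serK) t = _
  rw [evq_neg, evq_eq]; rfl
theorem wy_7 (ht : ‖t‖ < 1) : tupC .wy t 7 = -twv t (k0 t) (k1 t) := by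
  rw [tupC_eq _ (fun _ => rfl)]
  show evq (-tw serK) t = _
  rw [evq_neg, evq_tw pq_serK ht]; rfl
theorem w8_6 : tupC .w8 t 6 = k0 t := by
  rw [tupC_eq _ (fun _ => rfl)]; exact evq_eq _ _
theorem w8_7 (ht : ‖t‖ < 1) : tupC .w8 t 7 = twv t (k0 t) (k1 t) := by
  rw [tupC_eq _ (fun _ => rfl)]; exact evq_tw pq_serK ht

theorem wL0_6 : evt wL0 t 6 = 0 := evq_zero
theorem wL0_7 : evt wL0 t 7 = 0 := evq_zero
theorem wM0_6 : evt wM0 t 6 = m0 t := evq_eq _ _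
theorem wM0_7 (ht : ‖t‖ < 1) : evt wM0 t 7 = twv t (m0 t) (m1 t) := evq_tw pq_serM ht

theorem v2_6 : tupC .v2 t 6 = 0 := by
  rw [tupC_eq _ (fun _ => rfl)]; exact evq_zero
theorem v2_7 : tupC .v2 t 7 = 0 := by
  rw [tupC_eq _ (fun _ => rfl)]; exact evq_zero
theorem vb_6 : tupC .vb t 6 = 0 := by
  rw [tupC_eq _ (fun _ => rfl)]; exact evq_zero
theorem vb_7 : tupC .vb t 7 = 0 := by
  rw [tupC_eq _ (fun _ => rfl)]; exact evq_zero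
theorem v8_6 (ht : ‖t‖ < 1) : tupC .v8 t 6 = -((1 - t) * k0 t) := by
  rw [tupC_eq _ (fun _ => rfl)]
  show evq (-((1 - X) * serK)) t = _
  rw [evq_neg, evq_one_sub pq_serK ht]; rfl
theorem v8_7 (ht : ‖t‖ < 1) : tupC .v8 t 7 = (1 - t) * (k0 t + t * k1 t) := by
  rw [tupC_eq _ (fun _ => rfl)]
  show evq ((1 - X) * dd (X * serK)) t = _
  rw [evq_one_sub' (pq_dd (PG.varX.mul pq_serK)) ht, evq_ddX pq_serK ht]; rfl

theorem vE0_6 : evt vE0 t 6 = 0 := evq_zero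
theorem vE0_7 : evt vE0 t 7 = 0 := evq_zero
theorem vM0_6 (ht : ‖t‖ < 1) : evt vM0 t 6 = -((1 - t) * m0 t) := by
  show evq (-((1 - X) * serM)) t = _
  rw [evq_neg, evq_one_sub pq_serM ht]; rfl
theorem vM0_7 (ht : ‖t‖ < 1) : evt vM0 t 7 = (1 - t) * (m0 t + t * m1 t + k0 t) := by
  show evq ((1 - X) * (dd (X * serM) + serK)) t = _
  rw [evq_one_sub' ((pq_dd (PG.varX.mul pq_serM)).add pq_serK) ht,
    evq_add (pq_dd (PG.varX.mul pq_serM)) pq_serK ht, evq_ddX pq_serM ht, evq_eq]; rfl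
theorem vO0_6 (ht : ‖t‖ < 1) : evt vO0 t 6 = -((1 - t) * b0 t) := by
  show evq (-((1 - X) * serB)) t = _
  rw [evq_neg, evq_one_sub pq_serB ht]; rfl
theorem vO0_7 (ht : ‖t‖ < 1) : evt vO0 t 7 = (1 - t) * (b0 t + t * b1 t) := by
  show evq ((1 - X) * dd (X * serB)) t = _
  rw [evq_one_sub' (pq_dd (PG.varX.mul pq_serB)) ht, evq_ddX pq_serB ht]; rfl

theorem x2_6 (ht : ‖t‖ < 1) : tupC .x2 t 6 = 1 / 8 * (t * k0 t) := by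
  rw [tupC_eq _ (fun _ => rfl)]
  show evq (sc (1 / 8) (X * serK)) t = _
  rw [evq_sc _ (PG.varX.mul pq_serK) ht, evq_X pq_serK ht]; push_cast; rfl
theorem x2_7 (ht : ‖t‖ < 1) : tupC .x2 t 7 = 1 / 8 * (t * twv t (k0 t) (k1 t)) := by
  rw [tupC_eq _ (fun _ => rfl)]
  show evq (sc (1 / 8) (X * tw serK)) t = _
  rw [evq_sc _ (PG.varX.mul (pq_tw pq_serK)) ht, evq_X' (pq_tw pq_serK) ht, evq_tw pq_serK ht]
  push_cast; rfl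
theorem xl_6 (ht : ‖t‖ < 1) : tupC .xl t 6 = -(t * k0 t) := by
  rw [tupC_eq _ (fun _ => rfl)]
  show evq (-(X * serK)) t = _
  rw [evq_neg, evq_X pq_serK ht]; rfl
theorem xl_7 (ht : ‖t‖ < 1) : tupC .xl t 7 = -(t * twv t (k0 t) (k1 t)) := by
  rw [tupC_eq _ (fun _ => rfl)]
  show evq (-(X * tw serK)) t = _
  rw [evq_neg, evq_X' (pq_tw pq_serK) ht, evq_tw pq_serK ht]; rfl
theorem x1_6 (ht : ‖t‖ < 1) : tupC .x1 t 6 = 1 / 4 * (t * m0 t) := by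
  rw [tupC_eq _ (fun _ => rfl)]
  show evq (sc (1 / 4) (X * serM)) t = _
  rw [evq_sc _ (PG.varX.mul pq_serM) ht, evq_X pq_serM ht]; push_cast; rfl

theorem pq_a : PQ ((1 - X ^ 2) * serK) := (PG.one.sub (PG.varX.pow 2)).mul pq_serK
theorem pq_b : PQ ((1 - X ^ 2) * serM) := (PG.one.sub (PG.varX.pow 2)).mul pq_serM

theorem x1_7 (ht : ‖t‖ < 1) : tupC .x1 t 7
    = 1 / 4 * (t * twv t (m0 t) (m1 t) + 1 / 2 * ((1 - t ^ 2) * k0 t)) := by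
  rw [tupC_eq _ (fun _ => rfl)]
  show evq (sc (1 / 4) (X * tw serM + sc (1 / 2) ((1 - X ^ 2) * serK))) t = _
  rw [evq_sc _ ((PG.varX.mul (pq_tw pq_serM)).add (pq_sc pq_a _)) ht,
    evq_add (PG.varX.mul (pq_tw pq_serM)) (pq_sc pq_a _) ht, evq_X' (pq_tw pq_serM) ht,
    evq_tw pq_serM ht, evq_sc _ pq_a ht, evq_one_sub_sq pq_serK ht]
  push_cast; rfl

theorem xE0_6 : evt xE0 t 6 = 0 := evq_zero
theorem xE0_7 : evt xE0 t 7 = 0 := evq_zero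
theorem xM0_6 (ht : ‖t‖ < 1) : evt xM0 t 6 = -(t * m0 t) := by
  show evq (-(X * serM)) t = _
  rw [evq_neg, evq_X pq_serM ht]; rfl
theorem xM0_7 (ht : ‖t‖ < 1) : evt xM0 t 7
    = -(t * twv t (m0 t) (m1 t) + 1 / 2 * ((1 - t ^ 2) * k0 t)) := by
  show evq (-(X * tw serM + sc (1 / 2) ((1 - X ^ 2) * serK))) t = _
  rw [evq_neg, evq_add (PG.varX.mul (pq_tw pq_serM)) (pq_sc pq_a _) ht, evq_X' (pq_tw pq_serM) ht,
    evq_tw pq_serM ht, evq_sc _ pq_a ht, evq_one_sub_sq pq_serK ht]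
  push_cast; rfl
theorem xO0_6 (ht : ‖t‖ < 1) : evt xO0 t 6 = 1 / 8 * (t * r0 t) := by
  show evq (sc (1 / 8) (X * AR.serR)) t = _
  rw [serR_eq, evq_sc _ (PG.varX.mul pq_serR) ht, evq_X pq_serR ht]; push_cast; rfl
theorem xO0_7 (ht : ‖t‖ < 1) : evt xO0 t 7
    = 1 / 8 * (t * twv t (r0 t) (r1 t) + (1 - t ^ 2) * m0 t) := by
  show evq (sc (1 / 8) (X * tw AR.serR + (1 - X ^ 2) * serM)) t = _
  rw [serR_eq, evq_sc _ ((PG.varX.mul (pq_tw pq_serR)).add pq_b) ht,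
    evq_add (PG.varX.mul (pq_tw pq_serR)) pq_b ht, evq_X' (pq_tw pq_serR) ht,
    evq_tw pq_serR ht, evq_one_sub_sq pq_serM ht]
  push_cast; rfl

/-! ### the closed forms of the components 6 and 7 -/

/-- components 6 at `c0` -/
def C06 (T t : ℂ) : Fin 8 → ℂ :=
  ![(1 - t) * b0 t - xc * ((1 - t) * k0 t), 0, 0, 0, 0, 0, pc / 2 * ((1 - t) * k0 t),
    (2 * l2 - T) * ((1 - t) * k0 t) - (1 - t) * m0 t]
def C07 (T t : ℂ) : Fin 8 → ℂ :=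
  ![(1 - t) * (t * b1 t) - xc * ((1 - t) * (t * k1 t)), 0, 0, 0, 0, 0,
    pc / 2 * ((1 - t) * (t * k1 t)),
    (2 * l2 - T) * ((1 - t) * (t * k1 t)) - (1 - t) * (t * m1 t + k0 t)]

theorem gl0_6 (ht : ‖t‖ < 1) (T : ℂ) (i : Fin 8) : gl0 T t i 6 = C06 T t i := by
  fin_cases i
  · show tupC .z1 t 6 + l2 * tupC .zl t 6 = _
    rw [z1_6 ht, zl_6, mul_zero, add_zero]; rfl
  · exact zl_6
  · show evt zL0 t 6 + T * dv 6 = _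
    rw [zL0_6, dv6, mul_zero, add_zero]; rfl
  · rfl
  · rfl
  · rfl
  · show pc / 2 * tupC .z8 t 6 = _
    rw [z8_6 ht]; rfl
  · show (2 * l2 - T) * tupC .z8 t 6 - evt zM0 t 6 = _
    rw [z8_6 ht, zM0_6 ht]; rfl

theorem gl0_7 (ht : ‖t‖ < 1) (T : ℂ) (i : Fin 8) : gl0 T t i 7 = C07 T t i := by
  fin_cases i
  · show tupC .z1 t 7 + l2 * tupC .zl t 7 = _
    rw [z1_7 ht, zl_7, mul_zero, add_zero]; rfl
  · exact zl_7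
  · show evt zL0 t 7 + T * dv 7 = _
    rw [zL0_7, dv7, mul_zero, add_zero]; rfl
  · rfl
  · rfl
  · rfl
  · show pc / 2 * tupC .z8 t 7 = _
    rw [z8_7 ht]; rfl
  · show (2 * l2 - T) * tupC .z8 t 7 - evt zM0 t 7 = _
    rw [z8_7 ht, zM0_7 ht]; rfl


/-- components 6 at `c1` -/
def C16 (T t : ℂ) : Fin 8 → ℂ :=
  ![d0 t - pc ^ 2 / 16 * k0 t, 0, 0, 0, 0, 0, 2 * l2 * k0 t - (m0 t + T * k0 t),
    pc * k0 t - 2 * Complex.I * (2 * l2 * k0 t - (m0 t + T * k0 t))]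
def C17 (T t : ℂ) : Fin 8 → ℂ :=
  ![twv t (d0 t) (d1 t) - pc ^ 2 / 16 * twv t (k0 t) (k1 t), 0, 0, 0, 0, 0,
    2 * l2 * twv t (k0 t) (k1 t) - (twv t (m0 t) (m1 t) + T * twv t (k0 t) (k1 t)
      + (1 - t ^ 2) / (2 * t) * k0 t),
    pc * twv t (k0 t) (k1 t) - 2 * Complex.I * (2 * l2 * twv t (k0 t) (k1 t)
      - (twv t (m0 t) (m1 t) + T * twv t (k0 t) (k1 t) + (1 - t ^ 2) / (2 * t) * k0 t))]

theorem wMv_6 (T : ℂ) : wMv T t 6 = m0 t + T * k0 t := by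
  show evt wM0 t 6 + T * tupC .w8 t 6
    + ((1 - t ^ 2) / (2 * t) * evq serK t) * (Pi.single 7 1 : Fin 8 → ℂ) 6 = _
  rw [wM0_6, w8_6, Pi.single_eq_of_ne (by decide), mul_zero, add_zero]

theorem wMv_7 (ht : ‖t‖ < 1) (T : ℂ) : wMv T t 7 = twv t (m0 t) (m1 t)
    + T * twv t (k0 t) (k1 t) + (1 - t ^ 2) / (2 * t) * k0 t := by
  show evt wM0 t 7 + T * tupC .w8 t 7
    + ((1 - t ^ 2) / (2 * t) * evq serK t) * (Pi.single 7 1 : Fin 8 → ℂ) 7 = _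
  rw [wM0_7 ht, w8_7 ht, Pi.single_eq_same, mul_one, evq_eq]; rfl

theorem wLv_6 (T : ℂ) : wLv T t 6 = 0 := by
  show evt wL0 t 6 + T * gv 6 = _
  rw [wL0_6, gv6]; ring
theorem wLv_7 (T : ℂ) : wLv T t 7 = 0 := by
  show evt wL0 t 7 + T * gv 7 = _
  rw [wL0_7, gv7]; ring

theorem gl1_6 (T : ℂ) (i : Fin 8) : gl1 T t i 6 = C16 T t i := by
  fin_cases i
  · show tupC .w1 t 6 + l2 * tupC .wl t 6 + pc ^ 2 / 16 * tupC .wy t 6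
      = d0 t - pc ^ 2 / 16 * k0 t
    rw [w1_6, wl_6, wy_6]; ring
  · show tupC .wl t 6 + wLv T t 6 + l2 / 2 * (gv 6 - hv 6) = 0
    rw [wl_6, wLv_6, gv6, hv6]; ring
  · show wLv T t 6 + Complex.I * pc * dv 6 + l2 * (gv 6 - hv 6) = 0
    rw [wLv_6, dv6, gv6, hv6]; ring
  · rfl
  · rfl
  · rfl
  · show 2 * l2 * tupC .w8 t 6 - wMv T t 6 = _
    rw [w8_6, wMv_6]; rfl
  · show pc * tupC .w8 t 6 - 2 * Complex.I * (2 * l2 * tupC .w8 t 6 - wMv T t 6) = _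
    rw [w8_6, wMv_6]; rfl

theorem gl1_7 (ht : ‖t‖ < 1) (T : ℂ) (i : Fin 8) : gl1 T t i 7 = C17 T t i := by
  fin_cases i
  · show tupC .w1 t 7 + l2 * tupC .wl t 7 + pc ^ 2 / 16 * tupC .wy t 7
      = twv t (d0 t) (d1 t) - pc ^ 2 / 16 * twv t (k0 t) (k1 t)
    rw [w1_7 ht, wl_7, wy_7 ht]; ring
  · show tupC .wl t 7 + wLv T t 7 + l2 / 2 * (gv 7 - hv 7) = 0
    rw [wl_7, wLv_7, gv7, hv7]; ring
  · show wLv T t 7 + Complex.I * pc * dv 7 + l2 * (gv 7 - hv 7) = 0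
    rw [wLv_7, dv7, gv7, hv7]; ring
  · rfl
  · rfl
  · rfl
  · show 2 * l2 * tupC .w8 t 7 - wMv T t 7 = _
    rw [w8_7 ht, wMv_7 ht]; rfl
  · show pc * tupC .w8 t 7 - 2 * Complex.I * (2 * l2 * tupC .w8 t 7 - wMv T t 7) = _
    rw [w8_7 ht, wMv_7 ht]; rfl

/-- components 6 and 7 of `v8`, `A1` at `c2` -/
def v6 (t : ℂ) : ℂ := -((1 - t) * k0 t)
def v7 (t : ℂ) : ℂ := (1 - t) * (k0 t + t * k1 t)
def a16 (T t : ℂ) : ℂ := -((1 - t) * m0 t) + T * v6 t - 2 * l2 * v6 t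
def a17 (T t : ℂ) : ℂ := (1 - t) * (m0 t + t * m1 t + k0 t) + T * v7 t - 2 * l2 * v7 t

theorem A1v_6 (ht : ‖t‖ < 1) (T : ℂ) : A1v T t 6 = a16 T t := by
  show evt vM0 t 6 + T * tupC .v8 t 6 - 2 * l2 * tupC .v8 t 6 = _
  rw [vM0_6 ht, v8_6 ht]; rfl
theorem A1v_7 (ht : ‖t‖ < 1) (T : ℂ) : A1v T t 7 = a17 T t := by
  show evt vM0 t 7 + T * tupC .v8 t 7 - 2 * l2 * tupC .v8 t 7 = _
  rw [vM0_7 ht, v8_7 ht]; rfl
theorem A2v_6 (ht : ‖t‖ < 1) : A2v t 6 = pc / 2 * v6 t := by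
  show pc / 2 * tupC .v8 t 6 = _
  rw [v8_6 ht]; rfl
theorem A2v_7 (ht : ‖t‖ < 1) : A2v t 7 = pc / 2 * v7 t := by
  show pc / 2 * tupC .v8 t 7 = _
  rw [v8_7 ht]; rfl
theorem vEv_6 (T : ℂ) : vEv T t 6 = 0 := by
  show evt vE0 t 6 + T / 2 * (hv 6 - gv 6) = 0
  rw [vE0_6, gv6, hv6]; ring
theorem vEv_7 (T : ℂ) : vEv T t 7 = 0 := by
  show evt vE0 t 7 + T / 2 * (hv 7 - gv 7) = 0
  rw [vE0_7, gv7, hv7]; ring

def C26 (T t : ℂ) : Fin 8 → ℂ :=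
  ![-((1 - t) * b0 t) - pc / 8 * a16 T t - xc * v6 t, 0, 0, 0, 0, 0,
    pc / 2 * v6 t + Complex.I * (2 * Complex.I * (pc / 2 * v6 t) - a16 T t),
    2 * Complex.I * (pc / 2 * v6 t) - a16 T t]
def C27 (T t : ℂ) : Fin 8 → ℂ :=
  ![(1 - t) * (b0 t + t * b1 t) - pc / 8 * a17 T t - xc * v7 t, 0, 0, 0, 0, 0,
    pc / 2 * v7 t + Complex.I * (2 * Complex.I * (pc / 2 * v7 t) - a17 T t),
    2 * Complex.I * (pc / 2 * v7 t) - a17 T t]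

theorem gl2_6 (ht : ‖t‖ < 1) (T : ℂ) (i : Fin 8) : gl2 T t i 6 = C26 T t i := by
  fin_cases i
  · show (evt vO0 t 6 + T * tupC .vb t 6 + T ^ 2 / 2 * tupC .v2 t 6) + l2 * vEv T t 6
      - pc ^ 2 / 6 * dv 6 - pc ^ 2 / 4 * gv 6 - pc / 8 * A1v T t 6 - xc * tupC .v8 t 6
      = -((1 - t) * b0 t) - pc / 8 * a16 T t - xc * v6 t
    rw [vO0_6 ht, vb_6, v2_6, vEv_6, dv6, gv6, A1v_6 ht, v8_6 ht, v6]; ring
  · show vEv T t 6 + Complex.I * pc * gv 6 = 0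
    rw [vEv_6, gv6]; ring
  · show tupC .vb t 6 + T * tupC .v2 t 6 + Complex.I * pc * (dv 6 + gv 6) = 0
    rw [vb_6, v2_6, dv6, gv6]; ring
  · rfl
  · rfl
  · rfl
  · show A2v t 6 + Complex.I * (2 * Complex.I * A2v t 6 - A1v T t 6) = _
    rw [A2v_6 ht, A1v_6 ht]; rfl
  · show 2 * Complex.I * A2v t 6 - A1v T t 6 = _
    rw [A2v_6 ht, A1v_6 ht]; rfl

theorem gl2_7 (ht : ‖t‖ < 1) (T : ℂ) (i : Fin 8) : gl2 T t i 7 = C27 T t i := by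
  fin_cases i
  · show (evt vO0 t 7 + T * tupC .vb t 7 + T ^ 2 / 2 * tupC .v2 t 7) + l2 * vEv T t 7
      - pc ^ 2 / 6 * dv 7 - pc ^ 2 / 4 * gv 7 - pc / 8 * A1v T t 7 - xc * tupC .v8 t 7
      = (1 - t) * (b0 t + t * b1 t) - pc / 8 * a17 T t - xc * v7 t
    rw [vO0_7 ht, vb_7, v2_7, vEv_7, dv7, gv7, A1v_7 ht, v8_7 ht, v7]; ring
  · show vEv T t 7 + Complex.I * pc * gv 7 = 0
    rw [vEv_7, gv7]; ring
  · show tupC .vb t 7 + T * tupC .v2 t 7 + Complex.I * pc * (dv 7 + gv 7) = 0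
    rw [vb_7, v2_7, dv7, gv7]; ring
  · rfl
  · rfl
  · rfl
  · show A2v t 7 + Complex.I * (2 * Complex.I * A2v t 7 - A1v T t 7) = _
    rw [A2v_7 ht, A1v_7 ht]; rfl
  · show 2 * Complex.I * A2v t 7 - A1v T t 7 = _
    rw [A2v_7 ht, A1v_7 ht]; rfl

/-! ### `c3` -/

theorem k3v_6 (ht : ‖t‖ < 1) : k3v t 6 = -(t * k0 t) := by
  show tupC .xl t 6 + gv 6 - hv 6 = _
  rw [xl_6 ht, gv6, hv6]; ring
theorem k3v_7 (ht : ‖t‖ < 1) : k3v t 7 = -(t * twv t (k0 t) (k1 t)) := by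
  show tupC .xl t 7 + gv 7 - hv 7 = _
  rw [xl_7 ht, gv7, hv7]; ring

/-- the second solution at `c3` : value and twisted derivative -/
def xm6 (T t : ℂ) : ℂ := m0 t + T * k0 t
def xm7 (T t : ℂ) : ℂ := t * twv t (m0 t) (m1 t) + 1 / 2 * ((1 - t ^ 2) * k0 t)
  + T * (t * twv t (k0 t) (k1 t))

theorem xMv_6 (ht : ‖t‖ < 1) (T : ℂ) : xMv T t 6 = -(t * xm6 T t) := by
  show evt xM0 t 6 + T * k3v t 6 = _
  rw [xM0_6 ht, k3v_6 ht, xm6]; ring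
theorem xMv_7 (ht : ‖t‖ < 1) (T : ℂ) : xMv T t 7 = -xm7 T t := by
  show evt xM0 t 7 + T * k3v t 7 = _
  rw [xM0_7 ht, k3v_7 ht, xm7]; ring
theorem x1v_6 (ht : ‖t‖ < 1) (T : ℂ) : x1v T t 6 = 1 / 4 * (t * xm6 T t) := by
  show tupC .x1 t 6 + 2 * T * tupC .x2 t 6 = _
  rw [x1_6 ht, x2_6 ht, xm6]; ring
theorem x1v_7 (ht : ‖t‖ < 1) (T : ℂ) : x1v T t 7 = 1 / 4 * xm7 T t := by
  show tupC .x1 t 7 + 2 * T * tupC .x2 t 7 = _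
  rw [x1_7 ht, x2_7 ht, xm7]; ring
theorem xEv_6 (T : ℂ) : xEv T t 6 = 0 := by
  show evt xE0 t 6 - T / 2 * (gv 6 + hv 6) = 0
  rw [xE0_6, gv6, hv6]; ring
theorem xEv_7 (T : ℂ) : xEv T t 7 = 0 := by
  show evt xE0 t 7 - T / 2 * (gv 7 + hv 7) = 0
  rw [xE0_7, gv7, hv7]; ring

def C36 (T t : ℂ) : Fin 8 → ℂ :=
  ![t * ((r0 t + 2 * T * m0 t + T ^ 2 * k0 t) / 8 - l2 / 2 * xm6 T t
      + (l2 ^ 2 / 2 + pc ^ 2 / 48) * k0 t), 0, 0, 0, 0, 0,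
    t * (xm6 T t - 2 * l2 * k0 t), -(pc * (t * k0 t))]
def C37 (T t : ℂ) : Fin 8 → ℂ :=
  ![(t * twv t (r0 t) (r1 t) + (1 - t ^ 2) * m0 t) / 8
      + T / 4 * (t * twv t (m0 t) (m1 t) + 1 / 2 * ((1 - t ^ 2) * k0 t))
      + T ^ 2 / 8 * (t * twv t (k0 t) (k1 t)) - l2 / 2 * xm7 T t
      + (l2 ^ 2 / 2 + pc ^ 2 / 48) * (t * twv t (k0 t) (k1 t)), 0, 0, 0, 0, 0,
    xm7 T t - 2 * l2 * (t * twv t (k0 t) (k1 t)), -(pc * (t * twv t (k0 t) (k1 t)))]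

theorem gl3_6 (ht : ‖t‖ < 1) (T : ℂ) (i : Fin 8) : gl3 T t i 6 = C36 T t i := by
  fin_cases i
  · show (evt xO0 t 6 + T * tupC .x1 t 6 + T ^ 2 * tupC .x2 t 6) + l2 * xEv T t 6
      + l2 * x1v T t 6 + 3 * l2 / 4 * xMv T t 6 - (l2 ^ 2 / 2 + pc ^ 2 / 48) * k3v t 6
      + pc ^ 2 / 6 * dv 6 + pc ^ 2 / 12 * gv 6
      = t * ((r0 t + 2 * T * m0 t + T ^ 2 * k0 t) / 8 - l2 / 2 * xm6 T t
      + (l2 ^ 2 / 2 + pc ^ 2 / 48) * k0 t)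
    rw [xO0_6 ht, x1_6 ht, x2_6 ht, xEv_6, x1v_6 ht, xMv_6 ht, k3v_6 ht, dv6, gv6]; ring
  · show xEv T t 6 + l2 / 2 * (gv 6 - hv 6) = 0
    rw [xEv_6, gv6, hv6]; ring
  · show -x1v T t 6 + l2 * (gv 6 - hv 6) - (1 / 4 : ℂ) * xMv T t 6 = 0
    rw [x1v_6 ht, gv6, hv6, xMv_6 ht]; ring
  · rfl
  · rfl
  · rfl
  · show 2 * l2 * k3v t 6 - xMv T t 6 = t * (xm6 T t - 2 * l2 * k0 t)
    rw [k3v_6 ht, xMv_6 ht]; ring
  · show pc * k3v t 6 = -(pc * (t * k0 t))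
    rw [k3v_6 ht]; ring

theorem gl3_7 (ht : ‖t‖ < 1) (T : ℂ) (i : Fin 8) : gl3 T t i 7 = C37 T t i := by
  fin_cases i
  · show (evt xO0 t 7 + T * tupC .x1 t 7 + T ^ 2 * tupC .x2 t 7) + l2 * xEv T t 7
      + l2 * x1v T t 7 + 3 * l2 / 4 * xMv T t 7 - (l2 ^ 2 / 2 + pc ^ 2 / 48) * k3v t 7
      + pc ^ 2 / 6 * dv 7 + pc ^ 2 / 12 * gv 7
      = (t * twv t (r0 t) (r1 t) + (1 - t ^ 2) * m0 t) / 8
      + T / 4 * (t * twv t (m0 t) (m1 t) + 1 / 2 * ((1 - t ^ 2) * k0 t))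
      + T ^ 2 / 8 * (t * twv t (k0 t) (k1 t)) - l2 / 2 * xm7 T t
      + (l2 ^ 2 / 2 + pc ^ 2 / 48) * (t * twv t (k0 t) (k1 t))
    rw [xO0_7 ht, x1_7 ht, x2_7 ht, xEv_7, x1v_7 ht, xMv_7 ht, k3v_7 ht, dv7, gv7]; ring
  · show xEv T t 7 + l2 / 2 * (gv 7 - hv 7) = 0
    rw [xEv_7, gv7, hv7]; ring
  · show -x1v T t 7 + l2 * (gv 7 - hv 7) - (1 / 4 : ℂ) * xMv T t 7 = 0
    rw [x1v_7 ht, gv7, hv7, xMv_7 ht]; ring
  · rfl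
  · rfl
  · rfl
  · show 2 * l2 * k3v t 7 - xMv T t 7 = xm7 T t - 2 * l2 * (t * twv t (k0 t) (k1 t))
    rw [k3v_7 ht, xMv_7 ht]; ring
  · show pc * k3v t 7 = -(pc * (t * twv t (k0 t) (k1 t)))
    rw [k3v_7 ht]; ring

end

end Vale.Agent.P030.H60.ExV
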